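import Vale.Agent.P345.Main
import Vale.Agent.P027.Lip

open Vale.Agent.P027 in
theorem Vale.Agent.Results.P027.NearInt.result :
    ∃ (σ : Type) (_ : Finite σ) (T : Set σ) (g : MvPolynomial (Option σ) ℤ),
      ¬ ComputablePred fun a : ℕ => ∃ x : σ → ℚ,
        MvPolynomial.aeval (fun o : Option σ => o.elim (a : ℚ) x) g = 0 ∧
          ∀ i ∈ T, ∃ k : ℤ, |x i - k| < 1 / 4 := by
  have hc : Computable fun a : Fin 1 → ℕ => Denumerable.ofNat Nat.Partrec.Code (a 0) :=
    ((Primrec.ofNat _).comp (Primrec.fin_app.comp Primrec.id (Primrec.const 0))).to_comp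
  have hS : REPred fun a : Fin 1 → ℕ =>
      a ∈ {a : Fin 1 → ℕ | ((Denumerable.ofNat Nat.Partrec.Code (a 0)).eval 0).Dom} :=
    Partrec.comp (ComputablePred.halting_problem_re 0) hc
  obtain ⟨m, q, ⟨P, hP⟩, h1, -⟩ := (Vale.Agent.P345.dp_re hS).normal
  have key : ∀ (a : ℕ) (w : Fin m → ℕ),
      MvPolynomial.eval (Sum.elim (fun _ => (a : ℤ)) (fun j => (w j : ℤ))) P =
        q (fun _ => a, w) := by
    intro a w
    rw [hP]
    congr 2
    funext i
    rcases i with i | i <;> rfl
  obtain ⟨T, g, hg⟩ := reduce P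
  refine ⟨Var m, inferInstance, T, g, fun h => ComputablePred.halting_problem 0 ?_⟩
  refine ComputablePred.computable_of_manyOneReducible
    ⟨Encodable.encode, Computable.encode, fun c => ?_⟩ h
  rw [← hg]
  have e := key (Encodable.encode c)
  refine Iff.trans (Iff.trans ?_ (h1 fun _ => Encodable.encode c))
    (exists_congr fun w => ⟨fun k => (e w).trans k, fun k => (e w).symm.trans k⟩)
  simp
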